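import Vale.Agent.P042.UU.Wire
set_option autoImplicit false

/-!
P042: for every intersective `h` and every `c < 1`, `r_h(N) ≤ C N exp(-(log N)^c)`.
-/

namespace Vale.Agent.Results.P042.AlmostPowerSaving

open Polynomial

/-- For every intersective `h` of degree at least two with positive leading coefficient and
every real `c < 1` there is `C` with `r_h(N) ≤ C N exp(-(log N)^c)` for all `N ≥ 1`. -/
theorem result :
    ∀ h : ℤ[X], 2 ≤ h.natDegree → 0 < h.leadingCoeff → Vale.Agent.P042.Intersective h →
      ∀ c : ℝ, c < 1 → ∃ C : ℝ, 0 < C ∧ ∀ N : ℕ, 1 ≤ N →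
        (Vale.Agent.P042.rMax h N : ℝ) ≤ C * N * Real.exp (-(Real.log N) ^ c) :=
  Vale.Agent.P042.UU.final5_holds

end Vale.Agent.Results.P042.AlmostPowerSaving
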