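import Vale.Agent.P042.SS.Final

set_option autoImplicit false

namespace Vale.Agent.Results.P042.EveryExponentSaving

open Polynomial

/-- `r_h(N) ≤ C N exp(-A √(log N))` for every intersective polynomial `h` of degree at least two
with positive leading coefficient (in particular for `h = x ^ 2`) and for EVERY `A > 0`. -/
theorem result (h : ℤ[X]) (hk : 2 ≤ h.natDegree) (hpos : 0 < h.leadingCoeff)
    (hint : Vale.Agent.P042.Intersective h) (A : ℝ) (hA : 0 < A) :
    ∃ C : ℝ, 0 < C ∧ ∀ N : ℕ, 1 ≤ N →
      (Vale.Agent.P042.rMax h N : ℝ) ≤ C * N * Real.exp (-(A * Real.sqrt (Real.log N))) :=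
  Vale.Agent.P042.SS.final_holds h hk hpos hint A hA

end Vale.Agent.Results.P042.EveryExponentSaving
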