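import Vale.Agent.P042.TT.Wire

set_option autoImplicit false

namespace Vale.Agent.Results.P042.ExponentBeyondHalf

open Polynomial

/-- `r_h(N) ≤ C N exp(-(log N) ^ 0.51)` for every intersective polynomial `h` of degree at least
two with positive leading coefficient (in particular for `h = x ^ 2`). -/
theorem result (h : ℤ[X]) (hk : 2 ≤ h.natDegree) (hpos : 0 < h.leadingCoeff)
    (hint : Vale.Agent.P042.Intersective h) :
    ∃ C : ℝ, 0 < C ∧ ∀ N : ℕ, 1 ≤ N →
      (Vale.Agent.P042.rMax h N : ℝ) ≤ C * N * Real.exp (-(Real.log N) ^ (0.51 : ℝ)) :=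
  Vale.Agent.P042.TT.final2_holds h hk hpos hint

end Vale.Agent.Results.P042.ExponentBeyondHalf
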