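import Vale.Agent.P042.X4.Main
import Vale.Agent.P042.WG.G6.Main
import Vale.Agent.P042.WG.G2.Main
import Vale.Agent.P042.WG.G1.Main
import Vale.Agent.P042.WA.FD.A7
import Vale.Agent.P042.WA.FD.A10
import Vale.Agent.P042.WA.ST.Main
import Vale.Agent.P042.WA.W3.Ambient
set_option autoImplicit false

namespace Vale.Agent.Results.P042.GoodRootPowerSaving

open Polynomial

/-- A power saving `r_h(N) ≤ K N^(1-c)` for every intersective polynomial `h` of degree at least
two with positive leading coefficient such that for all but finitely many primes `p` there is a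
root `z` of `h` in the `p`-adic integers whose multiplicity `m` is such that `-1` is an `m`-th
power of a `p`-adic integer `u` (for instance any root of odd multiplicity, with `u = -1`). -/
theorem result (h : ℤ[X]) (hk : 2 ≤ h.natDegree) (hpos : 0 < h.leadingCoeff)
    (hint : Vale.Agent.P042.Intersective h)
    (hgood : ∃ P0 : ℕ, ∀ (p : ℕ) [Fact p.Prime], P0 ≤ p → ∃ z u : ℤ_[p],
      (h.map (Int.castRingHom ℤ_[p])).eval z = 0 ∧
      u ^ (h.map (Int.castRingHom ℤ_[p])).rootMultiplicity z = -1) :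
    ∃ c : ℝ, 0 < c ∧ ∃ K : ℝ, 0 < K ∧ ∀ N : ℕ, 1 ≤ N →
      (Vale.Agent.P042.rMax h N : ℝ) ≤ K * (N : ℝ) ^ (1 - c) := by
  have hEW : Vale.Agent.P042.WG.EvenWeightG :=
    Vale.Agent.P042.WG.evenWeightG Vale.Agent.P042.WG.g1
      (Vale.Agent.P042.WA.FD.curveLower Vale.Agent.P042.WA.st)
      (Vale.Agent.P042.WA.FD.curveUpper Vale.Agent.P042.WA.st Vale.Agent.P042.WA.w3)
  obtain ⟨P0, hP0⟩ := hgood
  obtain ⟨P1, hP1⟩ := Vale.Agent.P042.WG.locP_good hEW h hk hpos
  obtain ⟨c, K, hc, hK⟩ := Vale.Agent.P042.X4.power_saving_of_large h hk hpos hint 2 (1 / 16)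
    (by norm_num) (P0 + P1) (fun p hp hpp => by
      have : Fact p.Prime := ⟨hp⟩
      exact hP1 p (by omega) (hP0 p (by omega)))
  refine ⟨c, hc, max K 1, lt_of_lt_of_le one_pos (le_max_right _ _), fun N hN => ?_⟩
  refine (hK N hN).trans ?_
  exact mul_le_mul_of_nonneg_right (le_max_left _ _) (by positivity)

end Vale.Agent.Results.P042.GoodRootPowerSaving
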