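import Vale.Agent.P042.SS.Final
import Vale.Agent.P042.X4.Main
import Vale.Agent.P042.WG.G6.Main
import Vale.Agent.P042.WG.G2.Main
import Vale.Agent.P042.WG.G1.Main
import Vale.Agent.P042.WA.W5.Main
import Vale.Agent.P042.WA.W4.Main
import Vale.Agent.P042.WA.FD.A7
import Vale.Agent.P042.WA.FD.A10
import Vale.Agent.P042.WA.ST.Main
import Vale.Agent.P042.WA.W1.Main
import Vale.Agent.P042.WA.W3.Ambient
import Vale.Agent.P042.Bdl.B1
set_option autoImplicit false

/-!
P042: the bounds for `r_h(N)` in one statement: every intersective `h`, every exponent in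
`N exp(-A √(log N))`; a power saving for every intersective `h` outside the square-like class
(in particular for every squarefree one and for every `h` with a rational root of odd
multiplicity); and the lower bound for squares.
-/

namespace Vale.Agent.Results.P042.MainBounds

open Polynomial

/-- For every intersective `h` of degree at least two with positive leading coefficient:
(1) `r_h(N) ≤ C N exp(-A √(log N))` for every `A > 0`;
(2) a power saving `r_h(N) ≤ K N^(1-c)` if for all large primes `p` some root `z` of `h` in the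
`p`-adic integers has a multiplicity `m` such that `-1` is an `m`-th power in `ℤ_p`;
(3) in particular a power saving if `h` is squarefree over `ℚ`, and
(4) if `h` has a rational integer root of odd multiplicity (for instance `h = x ^ k`, `k` odd).
(5) For squares, `r(N) ≥ c N^0.7558`. -/
theorem result :
    (∀ h : ℤ[X], 2 ≤ h.natDegree → 0 < h.leadingCoeff → Vale.Agent.P042.Intersective h →
      (∀ A : ℝ, 0 < A → ∃ C : ℝ, 0 < C ∧ ∀ N : ℕ, 1 ≤ N →
        (Vale.Agent.P042.rMax h N : ℝ) ≤ C * N * Real.exp (-(A * Real.sqrt (Real.log N)))) ∧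
      ((∃ P0 : ℕ, ∀ (p : ℕ) [Fact p.Prime], P0 ≤ p → ∃ z u : ℤ_[p],
          (h.map (Int.castRingHom ℤ_[p])).eval z = 0 ∧
          u ^ (h.map (Int.castRingHom ℤ_[p])).rootMultiplicity z = -1) →
        ∃ c : ℝ, 0 < c ∧ ∃ K : ℝ, 0 < K ∧ ∀ N : ℕ, 1 ≤ N →
          (Vale.Agent.P042.rMax h N : ℝ) ≤ K * (N : ℝ) ^ (1 - c)) ∧
      (Squarefree (h.map (Int.castRingHom ℚ)) →
        ∃ c : ℝ, 0 < c ∧ ∃ K : ℝ, 0 < K ∧ ∀ N : ℕ, 1 ≤ N →
          (Vale.Agent.P042.rMax h N : ℝ) ≤ K * (N : ℝ) ^ (1 - c)) ∧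
      ((∃ z : ℤ, Odd (h.rootMultiplicity z)) →
        ∃ c : ℝ, 0 < c ∧ ∃ K : ℝ, 0 < K ∧ ∀ N : ℕ, 1 ≤ N →
          (Vale.Agent.P042.rMax h N : ℝ) ≤ K * (N : ℝ) ^ (1 - c))) ∧
    ∃ c : ℝ, 0 < c ∧ ∀ N : ℕ, 1 ≤ N →
      c * (N : ℝ) ^ (0.7558 : ℝ) ≤ (Vale.Agent.P042.rMax (X ^ 2) N : ℝ) := by
  have hgoodT : ∀ h : ℤ[X], 2 ≤ h.natDegree → 0 < h.leadingCoeff →
      Vale.Agent.P042.Intersective h →
      (∃ P0 : ℕ, ∀ (p : ℕ) [Fact p.Prime], P0 ≤ p → ∃ z u : ℤ_[p],
        (h.map (Int.castRingHom ℤ_[p])).eval z = 0 ∧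
        u ^ (h.map (Int.castRingHom ℤ_[p])).rootMultiplicity z = -1) →
      ∃ c : ℝ, 0 < c ∧ ∃ K : ℝ, 0 < K ∧ ∀ N : ℕ, 1 ≤ N →
        (Vale.Agent.P042.rMax h N : ℝ) ≤ K * (N : ℝ) ^ (1 - c) := by
    intro h hk hpos hint hgood
    have hEW : Vale.Agent.P042.WG.EvenWeightG :=
      Vale.Agent.P042.WG.evenWeightG Vale.Agent.P042.WG.g1
        (Vale.Agent.P042.WA.FD.curveLower Vale.Agent.P042.WA.st)
        (Vale.Agent.P042.WA.FD.curveUpper Vale.Agent.P042.WA.st Vale.Agent.P042.WA.w3)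
    obtain ⟨P0, hP0⟩ := hgood
    obtain ⟨P1, hP1⟩ := Vale.Agent.P042.WG.locP_good hEW h hk hpos
    obtain ⟨c, K, hc, hK⟩ := Vale.Agent.P042.X4.power_saving_of_large h hk hpos hint 2 (1 / 16)
      (by norm_num) (P0 + P1) (fun p hp hpp => by
        have : Fact p.Prime := ⟨hp⟩
        exact hP1 p (by omega) (hP0 p (by omega)))
    refine ⟨c, hc, max K 1, lt_of_lt_of_le one_pos (le_max_right _ _), fun N hN => ?_⟩
    refine (hK N hN).trans ?_
    exact mul_le_mul_of_nonneg_right (le_max_left _ _) (by positivity)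
  refine ⟨fun h hk hpos hint => ⟨fun A hA =>
    Vale.Agent.P042.SS.final_holds h hk hpos hint A hA, hgoodT h hk hpos hint, ?_, ?_⟩,
    Vale.Agent.P042.lower_main⟩
  · intro hsq
    have hEW : Vale.Agent.P042.WA.EvenWeight :=
      Vale.Agent.P042.WA.evenWeight Vale.Agent.P042.WA.w1
        (Vale.Agent.P042.WA.FD.curveLower Vale.Agent.P042.WA.st)
        (Vale.Agent.P042.WA.FD.curveUpper Vale.Agent.P042.WA.st Vale.Agent.P042.WA.w3)
    obtain ⟨c, K, hc, hK⟩ :=
      Vale.Agent.P042.WA.W5.power_saving_of_evenWeight hEW h hk hpos hint hsq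
    refine ⟨c, hc, max K 1, lt_of_lt_of_le one_pos (le_max_right _ _), fun N hN => ?_⟩
    refine (hK N hN).trans ?_
    exact mul_le_mul_of_nonneg_right (le_max_left _ _) (by positivity)
  · rintro ⟨z, hz⟩
    refine hgoodT h hk hpos hint ⟨0, fun p _ _ => ⟨(z : ℤ_[p]), -1, ?_, ?_⟩⟩
    · have h0 : h ≠ 0 := by
        rintro rfl
        simp at hk
      have hz0 : 0 < h.rootMultiplicity z := hz.pos
      have hr : h.eval z = 0 := (Polynomial.rootMultiplicity_pos h0).1 hz0
      rw [Polynomial.eval_map, ← eq_intCast (Int.castRingHom ℤ_[p]) z, Polynomial.eval₂_at_apply,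
        hr, map_zero]
    · have hinj : Function.Injective (Int.castRingHom ℤ_[p]) :=
        (Int.castRingHom ℤ_[p]).injective_int
      have e := Polynomial.eq_rootMultiplicity_map (p := h) hinj z
      rw [eq_intCast (Int.castRingHom ℤ_[p]) z] at e
      rw [← e]
      exact hz.neg_one_pow

end Vale.Agent.Results.P042.MainBounds
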