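import Vale.Agent.P042.PS748.A9
import Vale.Agent.P042.PS748.T8
set_option autoImplicit false

namespace Vale.Agent.Results.P042.OddPowerSaving

open Polynomial

/-- A power saving `r_h(N) ≤ K N^(1-c)` for every intersective polynomial `h` of degree at least
two with positive leading coefficient that is odd about some point `s/2`, i.e. `h(s-x) = -h(x)`. -/
theorem result (h : ℤ[X]) (hk : 2 ≤ h.natDegree) (hpos : 0 < h.leadingCoeff)
    (hint : Vale.Agent.P042.Intersective h) (s : ℤ) (hs : h.comp (C s - X) = -h) :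
    ∃ c : ℝ, 0 < c ∧ ∃ K : ℝ, 0 < K ∧ ∀ N : ℕ, 1 ≤ N →
      (Vale.Agent.P042.rMax h N : ℝ) ≤ K * (N : ℝ) ^ (1 - c) := by
  obtain ⟨c, hc, Φ, hΦ, u, hper, hB, hF⟩ :=
    Vale.Agent.P042.PS748.arith_odd h (by omega) hpos hint s hs
  exact Vale.Agent.P042.PS748.power_saving h hk hpos 1 c hc Φ hΦ (fun _ => u)
    (fun _ n x hn => hper n x hn) (fun _ n x hn => by rw [pow_one]; exact hB n x hn) hF

end Vale.Agent.Results.P042.OddPowerSaving
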