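import Vale.Agent.P042.WA.W5.Main
import Vale.Agent.P042.WA.W4.Main
import Vale.Agent.P042.WA.FD.A7
import Vale.Agent.P042.WA.FD.A10
import Vale.Agent.P042.WA.ST.Main
import Vale.Agent.P042.WA.W1.Main
import Vale.Agent.P042.WA.W3.Ambient
set_option autoImplicit false

namespace Vale.Agent.Results.P042.SquarefreePowerSaving

open Polynomial

/-- A power saving `r_h(N) ≤ K N^(1-c)` for every intersective polynomial `h` of degree at least
two with positive leading coefficient and without repeated factors over the rationals. -/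
theorem result (h : ℤ[X]) (hk : 2 ≤ h.natDegree) (hpos : 0 < h.leadingCoeff)
    (hint : Vale.Agent.P042.Intersective h) (hsq : Squarefree (h.map (Int.castRingHom ℚ))) :
    ∃ c : ℝ, 0 < c ∧ ∃ K : ℝ, 0 < K ∧ ∀ N : ℕ, 1 ≤ N →
      (Vale.Agent.P042.rMax h N : ℝ) ≤ K * (N : ℝ) ^ (1 - c) := by
  have hEW : Vale.Agent.P042.WA.EvenWeight :=
    Vale.Agent.P042.WA.evenWeight Vale.Agent.P042.WA.w1
      (Vale.Agent.P042.WA.FD.curveLower Vale.Agent.P042.WA.st)
      (Vale.Agent.P042.WA.FD.curveUpper Vale.Agent.P042.WA.st Vale.Agent.P042.WA.w3)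
  obtain ⟨c, K, hc, hK⟩ :=
    Vale.Agent.P042.WA.W5.power_saving_of_evenWeight hEW h hk hpos hint hsq
  refine ⟨c, hc, max K 1, lt_of_lt_of_le one_pos (le_max_right _ _), fun N hN => ?_⟩
  refine (hK N hN).trans ?_
  exact mul_le_mul_of_nonneg_right (le_max_left _ _) (by positivity)

end Vale.Agent.Results.P042.SquarefreePowerSaving
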